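import Crest.Agent.N067.M.TLow
import Crest.Agent.N067.M.Chg
import Crest.Agent.N067.F.Flat1

/-! # T/Core (helper69): bounded depth and `ph0 ≥ c` is paid by `t Z² W²` on the band -/

set_option autoImplicit false

open MeasureTheory Laplacian InnerProductSpace Topology Filter Set Metric
open scoped RealInnerProductSpace Gradient ContDiff ENNReal

namespace Crest.Agent.N067.T

open Crest.Agent.R077 Crest.Agent.N067.V Crest.Agent.N067.Y Crest.Agent.N067.M

noncomputable section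

variable {n : ℕ}

theorem ph0_bd (n : ℕ) : ∃ C : ℝ, 0 ≤ C ∧ ∀ v : EE n → ℝ, Sol v → ∀ x, ph0 v x ≤ C := by
  obtain ⟨C, h⟩ := exists_phi_bd n
  exact ⟨C, C.2, fun v hv x => max_le ((h v hv).1 x) ((h _ (sol_ng hv)).1 x)⟩

theorem cont_ph0 {v : EE n → ℝ} (hv : Sol v) : Continuous (ph0 v) :=
  (continuous_phi hv).max (continuous_phi (sol_ng hv))

theorem ph0_cmp (n : ℕ) : ∃ C : ℝ, 1 ≤ C ∧ ∀ v : EE n → ℝ, Sol v → Stable v → ∀ x y,
    ph0 v y ≤ C * (1 + ‖x - y‖) ^ 2 * ph0 v x := by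
  obtain ⟨k0, hk0, h0⟩ := flatU n
  obtain ⟨C1, hC1, h1⟩ := flat_near n
  obtain ⟨C2, hC2, h2⟩ := ph0_bd n
  have q : 0 ≤ C2 / k0 := by positivity
  refine ⟨1 + C1 + C2 / k0, by linarith, fun v hv hs x y => ?_⟩
  have p0 := ph0_nonneg hv x
  have l1 : 1 ≤ (1 + ‖x - y‖) ^ 2 := one_le_pow₀ (le_add_of_nonneg_right (norm_nonneg _))
  rcases le_total (ph0 v x) k0 with hx | hx
  · have := h1 v (ph0 v x / 2) x hv ((flat_iff hv (by positivity)).2 (by linarith))
      (h0 v hv hs x hx) y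
    rw [flat_iff hv (by positivity), norm_sub_rev] at this
    have : 0 ≤ (1 + C2 / k0) * (1 + ‖x - y‖) ^ 2 * ph0 v x := by positivity
    linarith
  · calc ph0 v y ≤ C2 / k0 * 1 * k0 := by field_simp; exact h2 v hv y
      _ ≤ (1 + C1 + C2 / k0) * (1 + ‖x - y‖) ^ 2 * ph0 v x := by gcongr; linarith

theorem near_zero (n : ℕ) (D : ℝ) : ∃ R : ℝ, 0 < R ∧ ∀ v : EE n → ℝ, Sol v → ∀ x,
    |dd v x| ≤ D → ∃ y, v y = 0 ∧ ‖x - y‖ < R := by
  have h1 := Real.tanh_lt_one (D / √2)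
  obtain ⟨R, hR, h⟩ := ballS n ((1 - Real.tanh (D / √2)) / 2) (by linarith)
  refine ⟨R, hR, fun v hv x hx => ?_⟩
  by_contra hc
  push Not at hc
  have hz : ∀ y ∈ ball x R, v y ≠ 0 := fun y hy h0 =>
    absurd (mem_ball_iff_norm'.1 hy) (not_lt.2 (hc y h0))
  have key : ∀ w : EE n → ℝ, Sol w → (∀ y ∈ ball x R, w y ≠ 0) → 0 < w x → dd w x ≤ D →
      False := by
    intro w hw hz h0 hd
    have := h w hw.isSol x fun y hy => by
      by_contra hy0
      obtain ⟨z, hz1, hz2⟩ := (convex_ball x R).isPreconnected.intermediate_value hy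
        (mem_ball_self hR) hw.sm.continuous.continuousOn ⟨not_lt.1 hy0, h0.le⟩
      exact hz z hz1 hz2
    have h2 : w x ≤ Real.tanh (D / √2) := by
      rw [hw.eq_tanh x]
      exact tanh_strictMono.monotone (div_le_div_of_nonneg_right hd sqrt2_pos.le)
    linarith
  rcases (hz x (mem_ball_self hR)).lt_or_gt with h0 | h0
  · exact key _ (sol_ng hv) (fun y hy => neg_ne_zero.2 (hz y hy)) (neg_pos.2 h0)
      (by rw [dd_ng hv]; exact (neg_le_abs _).trans hx)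
  · exact key v hv hz h0 ((le_abs_self _).trans hx)

theorem band_of_zero {v : EE n → ℝ} (hv : Sol v) {y y' : EE n} (h : v y = 0) :
    |dd v y'| ≤ ‖y' - y‖ := by
  have := hv.abs_dd_sub_le y' y
  rwa [show dd v y = 0 by simp [dd, h], sub_zero] at this

theorem meas_band {v : EE n → ℝ} (hv : Sol v) (T : ℝ) : MeasurableSet {x | |dd v x| ≤ T} :=
  (isClosed_le hv.dd_sm.continuous.abs continuous_const).measurableSet

/-- **CORE** -/
theorem core (n : ℕ) (D c K : ℝ) (hc : 0 < c) (hK : 0 ≤ K) : ∃ c' A : ℝ, 0 < c' ∧ 0 < A ∧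
    ∀ (v W Z : EE n → ℝ) (zc : ℝ), Sol v → Stable v → Measurable W → Measurable Z →
      (∀ x, 0 ≤ W x) → (∀ x y, W x ≤ K * (1 + ‖x - y‖) ^ K * W y) → 0 ≤ zc →
      (∀ y, |dd v y| ≤ 1 → c' ≤ ph0 v y → zc ≤ Z y) →
      ∫⁻ x in {x | |dd v x| ≤ D ∧ c ≤ ph0 v x}, ENNReal.ofReal (zc ^ 2 * W x ^ 2) ≤
        ENNReal.ofReal A *
          ∫⁻ x in {x | |dd v x| ≤ 1}, ENNReal.ofReal (tt v x * Z x ^ 2 * W x ^ 2) := by
  obtain ⟨R, hR, h1⟩ := near_zero n D
  obtain ⟨C, hC, h2⟩ := ph0_cmp n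
  obtain ⟨C', hC', h3⟩ := tlo n 1
  obtain ⟨A, hA, h4⟩ := charge n one_pos
  set c' := c / (C * (R + 2) ^ 2) with hc'
  have c0 : 0 < c' := by positivity
  set τ := Real.exp (-(C' / c') - C') with hτ
  have τ0 : 0 < τ := Real.exp_pos _
  set B := (K * (R + 2) ^ K) ^ 2 * (R + 2) ^ (n + 1) / τ + 1 with hB
  have B0 : 0 < B := by positivity
  refine ⟨c', A * B, c0, by positivity, fun v W Z zc hv hs mW mZ W0 hW z0 hZ => ?_⟩
  have mg : Measurable fun x => tt v x * Z x ^ 2 * W x ^ 2 :=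
    (hv.continuous_tt.measurable.mul (mZ.pow_const 2)).mul (mW.pow_const 2)
  refine (h4 _ _ _ (fun x => B * (tt v x * Z x ^ 2 * W x ^ 2)) (meas_band hv 1) (mg.const_mul B)
    fun x hx => ?_).trans (le_of_eq ?_)
  · obtain ⟨y, hy0, hy⟩ := h1 v hv x hx.1
    refine ⟨y, fun y' hy' => ?_⟩
    have a1 := mem_ball_iff_norm.1 hy'
    have a2 : |dd v y'| ≤ 1 := (band_of_zero hv hy0).trans a1.le
    have a3 : 1 + ‖x - y'‖ ≤ R + 2 := by
      have := norm_sub_le_norm_sub_add_norm_sub x y y'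
      rw [norm_sub_rev y y'] at this
      linarith
    have a4 : c' ≤ ph0 v y' := by
      rw [hc', div_le_iff₀ (by positivity)]
      have b1 := h2 v hv hs y' x
      rw [norm_sub_rev] at b1
      have b2 := ph0_nonneg hv y'
      calc c ≤ C * (1 + ‖x - y'‖) ^ 2 * ph0 v y' := hx.2.trans b1
        _ ≤ C * (R + 2) ^ 2 * ph0 v y' := by gcongr
        _ = _ := by ring
    have a5 : τ ≤ tt v y' := by
      refine le_trans (Real.exp_le_exp.2 ?_) (h3 v hv y' (c0.trans_le a4) a2)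
      have : C' / ph0 v y' ≤ C' / c' := by gcongr
      linarith
    have a6 : W x ≤ K * (R + 2) ^ K * W y' := by
      have := W0 y'
      refine (hW x y').trans ?_
      gcongr
    refine ⟨a2, ?_⟩
    have w1 := W0 x
    have w2 := W0 y'
    calc zc ^ 2 * W x ^ 2 * (1 + ‖x - y'‖) ^ (n + 1)
        ≤ Z y' ^ 2 * (K * (R + 2) ^ K * W y') ^ 2 * (R + 2) ^ (n + 1) := by
          gcongr; exact hZ y' a2 a4
      _ = (B - 1) * (τ * Z y' ^ 2 * W y' ^ 2) := by rw [hB]; field_simp; ring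
      _ ≤ B * (tt v y' * Z y' ^ 2 * W y' ^ 2) := by gcongr; linarith
  · simp only [ENNReal.ofReal_mul B0.le, ENNReal.ofReal_mul hA.le]
    rw [lintegral_const_mul _ mg.ennreal_ofReal, mul_assoc]

end

end Crest.Agent.N067.T
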