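import Crest.Agent.N067.T.Prof
import Crest.Agent.N067.T.Core
import Crest.Agent.N067.U.Ue

/-! # T/Mid (helper69): the SSY part of the gain -/

set_option autoImplicit false

open MeasureTheory Laplacian InnerProductSpace Topology Filter Set Metric
open scoped RealInnerProductSpace Gradient ContDiff ENNReal

namespace Crest.Agent.N067.T

open Crest.Agent.R077 Crest.Agent.N067.V Crest.Agent.N067.Y Crest.Agent.N067.M

noncomputable section

variable {n : ℕ}

theorem ofReal_int_le {α : Type*} [MeasurableSpace α] {μ : Measure α} {f : α → ℝ}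
    (h : ∀ x, 0 ≤ f x) : ENNReal.ofReal (∫ x, f x ∂μ) ≤ ∫⁻ x, ENNReal.ofReal (f x) ∂μ := by
  rw [← Real.enorm_of_nonneg (integral_nonneg h)]
  refine (enorm_integral_le_lintegral_enorm _).trans (le_of_eq (lintegral_congr fun x => ?_))
  exact Real.enorm_of_nonneg (h x)

theorem psi_band {v : EE n → ℝ} (hv : Sol v) {x : EE n} (hx : |dd v x| ≤ 1) :
    1 ≤ 8 * psi v x := by
  have h1 := hv.exp_le_psi x
  have h2 : √2 ≤ 2 := by rw [Real.sqrt_le_left (by norm_num)]; norm_num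
  have h3 : Real.exp (-2) ≤ Real.exp (-(√2 * |dd v x|)) :=
    Real.exp_le_exp.2 (by nlinarith [abs_nonneg (dd v x), Real.sqrt_nonneg 2])
  have h4 : Real.exp 2 ≤ 8 := by
    have := Real.exp_one_lt_d9
    rw [show (2 : ℝ) = 1 + 1 by norm_num, Real.exp_add]
    nlinarith [Real.exp_pos 1]
  have h5 : Real.exp 2 * Real.exp (-2) = 1 := by rw [← Real.exp_add]; simp
  nlinarith [Real.exp_pos (-2)]

/-- **MID**.  `om` is the weight `W²` with `r0` replaced by `max r0 f0`, `lw = 1 / ϱ`. -/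
theorem mid (hX : X5Stmt n) {C0 : ℝ} (hC0 : 0 ≤ C0) (hT : ∀ v : EE n → ℝ, Pos v → Stable v →
    ∀ x, |dd v x| ≤ 1 → tt v x ≤ C0 * ph0 v x ^ 2) {b : ℝ} (hb0 : 0 ≤ b) (hb : b < 1) :
    ∃ e0 lam : ℝ, 0 < e0 ∧ 0 < lam ∧ ∀ K e : ℝ, 0 ≤ K → 0 < e → ∃ e' : ℝ, 0 < e' ∧ ∀ L : ℝ,
    ∃ C : ℝ, 0 ≤ C ∧ ∀ (v W om Z lw : EE n → ℝ) (f0 Z0 : ℝ), Pos v → Stable v → Wt lam om →
      Measurable W → Measurable Z → 0 < f0 → (∀ x, 0 ≤ lw x) → (∀ x, om x ≤ W x ^ 2) →
      (∀ x, lw x ≤ 1 / f0 → W x ^ 2 ≤ K * om x) →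
      (∀ x, ‖∇ om x‖ ≤ K * min (lw x) (1 / f0) * om x) →
      (∀ y, |dd v y| ≤ 1 → L ≤ f0 * ph0 v y → (Z0 * f0 * ph0 v y) ^ 2 ≤ e' * Z y ^ 2) →
      (∫⁻ x in {x | e0 ≤ tt v x}, ENNReal.ofReal (Z0 ^ 2 * f0 ^ 3 * Ff f0 (pb b v x) * W x ^ 2) ≤
        ENNReal.ofReal e' *
          ∫⁻ x in {x | |dd v x| ≤ 1}, ENNReal.ofReal (tt v x * Z x ^ 2 * W x ^ 2)) →
      ∫⁻ x in {x | |dd v x| ≤ 1}, ENNReal.ofReal (Z0 ^ 2 * f0 ^ 3 * Ff f0 (tt v x) * W x ^ 2) ≤
        ENNReal.ofReal e *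
          (∫⁻ x in {x | |dd v x| ≤ 1}, ENNReal.ofReal (tt v x * Z x ^ 2 * W x ^ 2)) +
        ENNReal.ofReal C * ∫⁻ x, ENNReal.ofReal
          (Z0 ^ 2 * f0 ^ 3 * min (lw x) (1 / f0) ^ 5 * psi v x ^ 2 * W x ^ 2) := by
  obtain ⟨e0, lam, C5, he0, hlam, hC5, h5⟩ := hX b hb0 hb
  refine ⟨e0, lam, he0, hlam, fun K e hK he => ?_⟩
  set A := K * 8 ^ 6 * C5 with hA
  have A0 : 0 ≤ A := by positivity
  obtain ⟨e', he', e1⟩ : ∃ e' : ℝ, 0 < e' ∧ (C0 + A) * e' ≤ e := by
    refine ⟨e / (C0 + A + 1), by positivity, ?_⟩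
    calc _ = e * ((C0 + A) / (C0 + A + 1)) := by ring
      _ ≤ e * 1 := by gcongr; exact div_le_one_of_le₀ (by linarith) (by positivity)
      _ = _ := mul_one _
  refine ⟨e', he', fun L => ⟨64 * (C0 * L ^ 2) ^ 2 + A * K ^ 5, by positivity,
    fun v W om Z lw f0 Z0 hv hs hw mW mZ hf l0 w1 w2 w3 hZ hB => ?_⟩⟩
  have h := hv.toSol
  set g : EE n → ℝ := fun x => tt v x * Z x ^ 2 * W x ^ 2 with hg
  set r : EE n → ℝ := fun x => Z0 ^ 2 * f0 ^ 3 * min (lw x) (1 / f0) ^ 5 * psi v x ^ 2 * W x ^ 2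
    with hr
  set s : EE n → ℝ := fun x => Ff f0 (pb b v x * tt v x) * om x with hs'
  have m0 : ∀ x, 0 ≤ min (lw x) (1 / f0) := fun x => le_min (l0 x) (by positivity)
  have g0 : ∀ x, 0 ≤ g x := fun x => by have := h.tt_nonneg x; simp only [hg]; positivity
  have r0 : ∀ x, 0 ≤ r x := fun x => by have := m0 x; simp only [hr]; positivity
  have s0 : ∀ x, 0 ≤ s x := fun x =>
    mul_nonneg (Ff_nonneg _ (mul_nonneg (pb_pos h b x).le (h.tt_nonneg x))) (hw.pos x).le
  have mg : Measurable g := (h.continuous_tt.measurable.mul (mZ.pow_const 2)).mul (mW.pow_const 2)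
  have is : Integrable s := integ_TT h hb0 (profF f0) hw
  set P := Z0 ^ 2 * f0 ^ 3 with hP
  have P0 : 0 ≤ P := by positivity
  have pt : ∀ x, |dd v x| ≤ 1 → P * Ff f0 (tt v x) * W x ^ 2 ≤
      C0 * e' * g x + (K * 8 ^ 6 * P * s x + 64 * (C0 * L ^ 2) ^ 2 * r x) := by
    intro x hx
    have a1 := psi_band h hx
    have t0 := h.tt_nonneg x
    have F0 := Ff_nonneg f0 t0
    have g1 : 0 ≤ C0 * e' * g x := by have := g0 x; positivity
    have s1 : 0 ≤ K * 8 ^ 6 * P * s x := by have := s0 x; positivity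
    have r1 : 0 ≤ 64 * (C0 * L ^ 2) ^ 2 * r x := by have := r0 x; positivity
    rcases le_total (lw x) (1 / f0) with hl | hl
    · have a2 : psi v x ^ 6 * Ff f0 (tt v x) ≤ Ff f0 (pb b v x * tt v x) :=
        psi6_le h hb0 hb (profF f0) x t0
      have a3 : (1 : ℝ) ≤ (8 * psi v x) ^ 6 := one_le_pow₀ a1
      have o0 := (hw.pos x).le
      calc _ ≤ P * ((8 * psi v x) ^ 6 * Ff f0 (tt v x)) * (K * om x) := by
            gcongr
            · exact le_mul_of_one_le_left F0 a3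
            · exact w2 x hl
        _ = K * 8 ^ 6 * P * (psi v x ^ 6 * Ff f0 (tt v x) * om x) := by ring
        _ ≤ K * 8 ^ 6 * P * s x := by simp only [hs']; gcongr
        _ ≤ _ := by linarith
    · have a2 : P * Ff f0 (tt v x) * W x ^ 2 ≤ (Z0 * f0 * tt v x) ^ 2 * W x ^ 2 := by
        calc _ = Z0 ^ 2 * f0 ^ 2 * (f0 * Ff f0 (tt v x)) * W x ^ 2 := by rw [hP]; ring
          _ ≤ Z0 ^ 2 * f0 ^ 2 * tt v x ^ 2 * W x ^ 2 := by gcongr; exact mul_Ff_le f0 t0
          _ = _ := by ring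
      have a3 := hT v hv hs x hx
      have p0 := ph0_nonneg h x
      rcases le_total L (f0 * ph0 v x) with hL | hL
      · refine a2.trans ?_
        calc _ = (Z0 * f0) ^ 2 * tt v x * (tt v x * W x ^ 2) := by ring
          _ ≤ (Z0 * f0) ^ 2 * (C0 * ph0 v x ^ 2) * (tt v x * W x ^ 2) := by gcongr
          _ = C0 * (Z0 * f0 * ph0 v x) ^ 2 * (tt v x * W x ^ 2) := by ring
          _ ≤ C0 * (e' * Z x ^ 2) * (tt v x * W x ^ 2) := by gcongr; exact hZ x hx hL
          _ = C0 * e' * g x := by simp only [hg]; ring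
          _ ≤ _ := by linarith
      · refine a2.trans ?_
        have a4 : f0 ^ 2 * tt v x ≤ C0 * L ^ 2 := by
          calc _ ≤ f0 ^ 2 * (C0 * ph0 v x ^ 2) := by gcongr
            _ = C0 * (f0 * ph0 v x) ^ 2 := by ring
            _ ≤ _ := by gcongr
        have a5 : (1 : ℝ) ≤ (8 * psi v x) ^ 2 := one_le_pow₀ a1
        calc _ = (f0 ^ 2 * tt v x) ^ 2 * 1 * (Z0 ^ 2 * (1 / f0) ^ 2 * W x ^ 2) := by field_simp
          _ ≤ (C0 * L ^ 2) ^ 2 * (8 * psi v x) ^ 2 * (Z0 ^ 2 * (1 / f0) ^ 2 * W x ^ 2) := by gcongr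
          _ = 64 * (C0 * L ^ 2) ^ 2 * r x := by
              simp only [hr, min_eq_right hl, hP]; field_simp; ring
          _ ≤ _ := by linarith
  set G := ∫⁻ x in {x | |dd v x| ≤ 1}, ENNReal.ofReal (g x) with hG
  set R := ∫⁻ x, ENNReal.ofReal (r x) with hR
  have b1 : ENNReal.ofReal (P * BAD b v (profF f0) om e0) ≤ ENNReal.ofReal e' * G := by
    refine le_trans ?_ hB
    rw [BAD, ← integral_const_mul]
    refine (ofReal_int_le fun x => mul_nonneg P0 (mul_nonneg (Ff_nonneg _ (pb_pos h b x).le)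
      (hw.pos x).le)).trans (lintegral_mono fun x => ENNReal.ofReal_le_ofReal ?_)
    have := Ff_nonneg f0 (pb_pos h b x).le
    rw [← mul_assoc]
    gcongr
    exact w1 x
  have b2 : ENNReal.ofReal (P * LAM v (profF f0) om) ≤ ENNReal.ofReal (K ^ 5) * R := by
    rw [LAM, ← integral_const_mul, hR, ← lintegral_const_mul' _ _ ENNReal.ofReal_ne_top]
    refine (ofReal_int_le fun x => mul_nonneg P0 (mul_nonneg (Ff_nonneg _ (sq_nonneg _))
      (mul_nonneg (sq_nonneg _) (hw.pos x).le))).trans (lintegral_mono fun x => ?_)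
    rw [← ENNReal.ofReal_mul (by positivity)]
    refine ENNReal.ofReal_le_ofReal ?_
    have o0 := hw.pos x
    have a1 : ‖∇ om x‖ / om x ≤ K * min (lw x) (1 / f0) := (div_le_iff₀ o0).2 (w3 x)
    have a2 := Ff_sq_le f0 (a := ‖∇ om x‖ / om x) (by positivity)
    have := m0 x
    calc _ ≤ P * ((K * min (lw x) (1 / f0)) ^ 5 * (psi v x ^ 2 * W x ^ 2)) := by
          gcongr
          · exact a2.trans (by gcongr)
          · exact w1 x
      _ = _ := by simp only [hr]; ring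
  have b3 : ∫⁻ x in {x | |dd v x| ≤ 1}, ENNReal.ofReal (K * 8 ^ 6 * P * s x) ≤
      ENNReal.ofReal A * (ENNReal.ofReal e' * G + ENNReal.ofReal (K ^ 5) * R) := by
    refine (setLIntegral_le_lintegral _ _).trans ?_
    rw [← ofReal_integral_eq_lintegral_ofReal (is.const_mul _)
      (ae_of_all _ fun x => by have := s0 x; positivity), integral_const_mul]
    refine le_trans ?_ (mul_le_mul_right (add_le_add b1 b2) _)
    refine le_trans ?_ (mul_le_mul_right ENNReal.ofReal_add_le _)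
    rw [← ENNReal.ofReal_mul A0]
    refine ENNReal.ofReal_le_ofReal ?_
    calc _ ≤ K * 8 ^ 6 * P * (C5 * (BAD b v (profF f0) om e0 + LAM v (profF f0) om)) := by
          gcongr; exact h5 v (profF f0) om hv hs hw
      _ = _ := by rw [hA]; ring
  have ms : AEMeasurable (fun x => ENNReal.ofReal (K * 8 ^ 6 * P * s x))
      (volume.restrict {x | |dd v x| ≤ 1}) :=
    ((is.const_mul _).aemeasurable.ennreal_ofReal).restrict
  calc _ ≤ ∫⁻ x in {x | |dd v x| ≤ 1}, (ENNReal.ofReal (C0 * e') * ENNReal.ofReal (g x) +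
          (ENNReal.ofReal (K * 8 ^ 6 * P * s x) +
            ENNReal.ofReal (64 * (C0 * L ^ 2) ^ 2) * ENNReal.ofReal (r x))) := by
        refine setLIntegral_mono' (meas_band h 1) fun x hx => ?_
        rw [← ENNReal.ofReal_mul (by positivity), ← ENNReal.ofReal_mul (by positivity)]
        exact ((ENNReal.ofReal_le_ofReal (pt x hx)).trans ENNReal.ofReal_add_le).trans
          (add_le_add le_rfl ENNReal.ofReal_add_le)
    _ ≤ ENNReal.ofReal (C0 * e') * G +
          (ENNReal.ofReal A * (ENNReal.ofReal e' * G + ENNReal.ofReal (K ^ 5) * R) +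
            ENNReal.ofReal (64 * (C0 * L ^ 2) ^ 2) * R) := by
        rw [lintegral_add_left (mg.ennreal_ofReal.const_mul _), lintegral_add_left' ms,
          lintegral_const_mul' _ _ ENNReal.ofReal_ne_top,
          lintegral_const_mul' _ _ ENNReal.ofReal_ne_top]
        gcongr
        exact setLIntegral_le_lintegral _ _
    _ = ENNReal.ofReal ((C0 + A) * e') * G +
          ENNReal.ofReal (64 * (C0 * L ^ 2) ^ 2 + A * K ^ 5) * R := by
        rw [add_mul C0, ENNReal.ofReal_add (by positivity) (by positivity),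
          ENNReal.ofReal_add (by positivity) (by positivity), ENNReal.ofReal_mul A0,
          ENNReal.ofReal_mul A0]
        ring
    _ ≤ _ := by gcongr

end

end Crest.Agent.N067.T
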