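import Crest.Agent.N067.D.Defs

/-! # T/BRat (helper69): the ratio of two values of the multiplier `b` (hypothesis of `T.gtB`) -/

set_option autoImplicit false

namespace Crest.Agent.N067.T

open Crest.Agent.N067.D

theorem b_ratio {f be Ub U U' a : ℝ} (hP : Par f be Ub) (hZ : ZOut f be Ub) (hU : 0 < U)
    (h1 : 80 / f ≤ U') (h2 : U' ≤ Ub / 400) (ha : 1 ≤ a) (h3 : U' ≤ a * max U (1 / f)) :
    b f be Ub U ≤ 2 * a * b f be Ub U' := by
  have f0 : 0 < f := by linarith [hP.f1]
  have be0 := hP.be0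
  have Ub0 := hP.Ub0
  obtain ⟨u0, u1, u2⟩ := hZ.ord
  have e4 : 4 / f ≤ 80 / f := by gcongr; norm_num
  have e2 : 2 / f ≤ 4 / f := by gcongr; norm_num
  have e1 : 1 / f ≤ 80 / f := by gcongr; norm_num
  have b1 := (hZ.q2 U hU).2.2.2.1
  rcases le_total U' (U3 be Ub) with h | h
  · rw [(hZ.bmain U' (e4.trans h1)).2 h]; linarith
  have U0 : 0 < U' := u0.trans_le h
  have s3 : (24 / 25 + be) * √(U3 be Ub / U') = be * √(Ub / U') := by
    rw [U3, mul_div_right_comm, Real.sqrt_mul (by positivity), Real.sqrt_sq (by positivity)]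
    field_simp
  have s20 : 20 ≤ √(Ub / U') := Real.le_sqrt_of_sq_le (by rw [le_div_iff₀ U0]; linarith)
  have e : b f be Ub U' = be * √(Ub / U') - be := by
    rw [b, cl, cl, min_eq_right (e4.trans h1), max_eq_right e2, min_eq_left (by linarith),
      max_eq_right h, s3]
    field_simp; ring
  have lo : 19 / 20 * (be * √(Ub / U')) ≤ b f be Ub U' := by rw [e]; nlinarith
  -- `V = max U U3`
  have key : ∀ V, 0 < V → U' ≤ a * V → be * √(Ub / V) ≤ a * (be * √(Ub / U')) := by
    intro V V0 hV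
    have : √(Ub / V) ≤ a * √(Ub / U') := by
      rw [← Real.sqrt_sq (zero_le_one.trans ha), ← Real.sqrt_mul (sq_nonneg _)]
      refine Real.sqrt_le_sqrt ?_
      rw [← mul_div_assoc, div_le_div_iff₀ V0 U0]
      nlinarith [mul_le_mul_of_nonneg_left hV Ub0.le, mul_pos (mul_pos Ub0 V0) (one_pos.trans_le ha)]
    nlinarith
  have p0 : 0 ≤ a * (be * √(Ub / U')) := by positivity
  have lo' := mul_le_mul_of_nonneg_left lo (zero_le_one.trans ha)
  rcases le_total U (U3 be Ub) with h' | h'
  · have k1 := key _ u0 (h3.trans (mul_le_mul_of_nonneg_left (max_le h' (e1.trans u1))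
      (zero_le_one.trans ha)))
    have k2 : be * √(Ub / U3 be Ub) = 24 / 25 + be := by
      have : Ub / U3 be Ub = ((24 / 25 + be) / be) ^ 2 := by rw [U3]; field_simp
      rw [this, Real.sqrt_sq (by positivity)]; field_simp
    linarith
  · have k1 := key _ hU (by rwa [max_eq_left (e1.trans (u1.trans h'))] at h3)
    linarith [hZ.btop U h']

end Crest.Agent.N067.T
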