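import Crest.Agent.N067.Y.Base

/-! # T/Prof (helper69): the model profile `y^(5/2) / √(1 + f² y)` is a `Prof` -/

set_option autoImplicit false

open Topology Filter Set
open scoped ContDiff

namespace Crest.Agent.N067.T

open Crest.Agent.N067.Y

noncomputable section

/-- the model profile -/
def Ff (f y : ℝ) : ℝ := y ^ (5 / 2 : ℝ) / √(1 + f ^ 2 * y)

theorem Ff_pos (f : ℝ) {y : ℝ} (hy : 0 < y) : 0 < Ff f y := by unfold Ff; positivity

theorem Ff_nonneg (f : ℝ) {y : ℝ} (hy : 0 ≤ y) : 0 ≤ Ff f y := by unfold Ff; positivity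

theorem hd_Ff (f : ℝ) {y : ℝ} (hy : 0 < y) :
    HasDerivAt (Ff f) (Ff f y * (5 / (2 * y) - f ^ 2 / (2 * (1 + f ^ 2 * y)))) y := by
  have h0 : 0 < 1 + f ^ 2 * y := by positivity
  have h1 := Real.hasDerivAt_rpow_const (x := y) (p := 5 / 2) (Or.inl hy.ne')
  have h2 := (((hasDerivAt_id' y).const_mul (f ^ 2)).const_add 1).sqrt h0.ne'
  have h3 := h1.div h2 (Real.sqrt_pos.2 h0).ne'
  refine h3.congr_deriv ?_
  have h4 := Real.sqrt_pos.2 h0
  have h5 := Real.sq_sqrt h0.le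
  rw [Ff, Real.rpow_sub_one hy.ne']
  set s := √(1 + f ^ 2 * y)
  rw [← h5]
  field_simp

/-- the model profile as a `Prof` -/
def profF (f : ℝ) : Prof where
  F := Ff f
  sm := by
    intro y hy
    have hy' : (0 : ℝ) < y := hy
    have h0 : 0 < 1 + f ^ 2 * y := by positivity
    refine ContDiffAt.contDiffWithinAt ?_
    exact (contDiffAt_id.rpow_const_of_ne hy'.ne').div
      ((contDiffAt_const.add (contDiffAt_const.mul contDiffAt_id)).sqrt h0.ne')
      (Real.sqrt_pos.2 h0).ne'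
  zero := by simp [Ff]
  pos := fun y hy => Ff_pos f hy
  lo := fun y hy => by
    have h0 : 0 < 1 + f ^ 2 * y := by positivity
    have h1 := Ff_pos f hy
    rw [(hd_Ff f hy).deriv]
    have : y * (Ff f y * (5 / (2 * y) - f ^ 2 / (2 * (1 + f ^ 2 * y)))) =
        2 * Ff f y + Ff f y / (2 * (1 + f ^ 2 * y)) := by field_simp; ring
    rw [this]
    have : 0 ≤ Ff f y / (2 * (1 + f ^ 2 * y)) := by positivity
    linarith
  hi := fun y hy => by
    have h0 : 0 < 1 + f ^ 2 * y := by positivity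
    have h1 := Ff_pos f hy
    rw [(hd_Ff f hy).deriv]
    have : y * (Ff f y * (5 / (2 * y) - f ^ 2 / (2 * (1 + f ^ 2 * y)))) =
        5 / 2 * Ff f y - Ff f y * (f ^ 2 * y) / (2 * (1 + f ^ 2 * y)) := by field_simp
    rw [this]
    have : 0 ≤ Ff f y * (f ^ 2 * y) / (2 * (1 + f ^ 2 * y)) := by positivity
    linarith
  cv := fun y hy => by
    have h0 : 0 < 1 + f ^ 2 * y := by positivity
    have h1 := Ff_pos f hy
    have e : deriv (Ff f) =ᶠ[𝓝 y]
        fun y => Ff f y * (5 / (2 * y) - f ^ 2 / (2 * (1 + f ^ 2 * y))) := by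
      filter_upwards [Ioi_mem_nhds hy] with z hz using (hd_Ff f hz).deriv
    have d1 := (hasDerivAt_const y (5 : ℝ)).div ((hasDerivAt_id' y).const_mul 2) (by positivity)
    have d2 := (hasDerivAt_const y (f ^ 2)).div
      ((((hasDerivAt_id' y).const_mul (f ^ 2)).const_add 1).const_mul 2) (by positivity)
    have d3 := (hd_Ff f hy).mul (d1.sub d2)
    rw [e.deriv_eq]
    erw [d3.deriv]
    simp only [Pi.sub_apply, Pi.div_apply]
    have : y ^ 2 * (Ff f y * (5 / (2 * y) - f ^ 2 / (2 * (1 + f ^ 2 * y))) *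
        (5 / (2 * y) - f ^ 2 / (2 * (1 + f ^ 2 * y))) + Ff f y *
        ((0 * (2 * y) - 5 * (2 * 1)) / (2 * y) ^ 2 -
          (0 * (2 * (1 + f ^ 2 * y)) - f ^ 2 * (2 * (f ^ 2 * 1))) / (2 * (1 + f ^ 2 * y)) ^ 2)) =
        Ff f y + Ff f y * ((11 + 12 * (f ^ 2 * y) + 4 * (f ^ 2 * y) ^ 2) /
          (4 * (1 + f ^ 2 * y) ^ 2)) := by
      field_simp; ring
    rw [this]
    have : 0 ≤ Ff f y * ((11 + 12 * (f ^ 2 * y) + 4 * (f ^ 2 * y) ^ 2) /
          (4 * (1 + f ^ 2 * y) ^ 2)) := by positivity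
    linarith

@[simp] theorem profF_F (f : ℝ) : (profF f).F = Ff f := rfl

/-- `F y ≤ y^(5/2)` -/
theorem Ff_le (f : ℝ) {y : ℝ} (hy : 0 ≤ y) : Ff f y ≤ y ^ (5 / 2 : ℝ) :=
  div_le_self (by positivity) (Real.one_le_sqrt.2 (by nlinarith [sq_nonneg f]))

/-- `F (a²) ≤ a⁵` -/
theorem Ff_sq_le (f : ℝ) {a : ℝ} (ha : 0 ≤ a) : Ff f (a ^ 2) ≤ a ^ 5 := by
  refine (Ff_le f (sq_nonneg a)).trans (le_of_eq ?_)
  rw [← Real.rpow_natCast, ← Real.rpow_mul ha, ← Real.rpow_natCast]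
  norm_num

/-- `f F y ≤ y²` -/
theorem mul_Ff_le (f : ℝ) {y : ℝ} (hy : 0 ≤ y) : f * Ff f y ≤ y ^ 2 := by
  have h0 : 0 < 1 + f ^ 2 * y := by positivity
  have h1 : y ^ (5 / 2 : ℝ) = y ^ 2 * √y := by
    rw [Real.sqrt_eq_rpow, ← Real.rpow_natCast, ← Real.rpow_add' hy (by norm_num)]
    norm_num
  have h2 : f * √y ≤ √(1 + f ^ 2 * y) := by
    refine Real.le_sqrt_of_sq_le ?_
    rw [mul_pow, Real.sq_sqrt hy]; linarith
  rw [Ff, h1, ← mul_div_assoc, div_le_iff₀ (Real.sqrt_pos.2 h0)]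
  calc f * (y ^ 2 * √y) = y ^ 2 * (f * √y) := by ring
    _ ≤ _ := by gcongr

end

end Crest.Agent.N067.T
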